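import Vale.Agent.P304.Bdl.B2

open MeasureTheory
open scoped ENNReal NNReal

namespace Vale.Agent.Results.P304.PolylogSharp

open Vale.Agent.P304

/-- **The randomized `k`-server ratio is polylogarithmic in `k` on all metric spaces.**
There is an absolute constant `C` such that for every `k ≥ 1`
* `R k ≤ C (1 + log k) ^ 4 (1 + log (1 + log k))`;
* `R k ≤ C (1 + log k) ^ 2 (1 + log (1 + log k)) ((1 + log k) ^ 2 + Rult k)`, where `Rult k` is the
  supremum of the ratio over finite ultrametric spaces;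
* `Rult k ≤ C (1 + log k) ^ 2`;
* on every metric space, when all servers start at one point, one randomized policy has expected
  cost at most `C (1 + log k) ^ 4 (1 + log (1 + log k))` times the offline optimum on all request
  sequences, with no additive constant. -/
theorem result : ∃ C : ℝ, 0 < C ∧ ∀ k : ℕ, 1 ≤ k →
    R k ≤ ENNReal.ofReal (C * ((1 + Real.log k) ^ 4 * (1 + Real.log (1 + Real.log k)))) ∧
    R k ≤ ENNReal.ofReal (C * ((1 + Real.log k) ^ 2 * (1 + Real.log (1 + Real.log k)))) *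
      (ENNReal.ofReal ((1 + Real.log k) ^ 2) + Rult k) ∧
    Rult k ≤ ENNReal.ofReal (C * (1 + Real.log k) ^ 2) ∧
    ∀ (X : Type) [MetricSpace X] (x : X),
      ∃ (Ω : Type) (_ : MeasurableSpace Ω) (P : Measure Ω) (A : Ω → List X → Fin k),
        IsProbabilityMeasure P ∧ (∀ h, Measurable fun ω => A ω h) ∧
          ∀ σ : List X, ∫ ω, policyCost (fun _ => x) (A ω) σ ∂P ≤
            C * ((1 + Real.log k) ^ 4 * (1 + Real.log (1 + Real.log k))) *
              opt (fun _ : Fin k => x) σ := by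
  obtain ⟨C₁, hC₁, h₁⟩ := Dyn.R_le_log4
  obtain ⟨C₂, hC₂, h₂⟩ := Dyn.R_le_mix'
  obtain ⟨C₃, hC₃, h₃⟩ := HST.exists_Rult_le
  refine ⟨C₁ + C₂ + C₃, by positivity, fun k hk => ?_⟩
  haveI : NeZero k := ⟨by omega⟩
  have hlog : 0 ≤ Real.log k := Real.log_nonneg (by exact_mod_cast hk)
  have hL : (0 : ℝ) ≤ 1 + Real.log k := by linarith
  have hll : 0 ≤ Real.log (1 + Real.log k) := Real.log_nonneg (by linarith)
  have hK4 : 0 ≤ (1 + Real.log k) ^ 4 * (1 + Real.log (1 + Real.log k)) := by positivity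
  have hK2 : 0 ≤ (1 + Real.log k) ^ 2 * (1 + Real.log (1 + Real.log k)) := by positivity
  have hR := h₁ k hk
  refine ⟨?_, ?_, ?_, ?_⟩
  · refine hR.trans (ENNReal.ofReal_le_ofReal (mul_le_mul_of_nonneg_right ?_ hK4))
    linarith
  · refine (h₂ k hk).trans (mul_le_mul_left (ENNReal.ofReal_le_ofReal
      (mul_le_mul_of_nonneg_right ?_ hK2)) _)
    linarith
  · refine (h₃ k hk).trans (ENNReal.ofReal_le_ofReal (mul_le_mul_of_nonneg_right ?_ (by positivity)))
    linarith
  · intro X _ x
    have hfin : R k ≠ ⊤ := ne_top_of_le_ne_top ENNReal.ofReal_ne_top hR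
    obtain ⟨Ω, m, P, A, hP, hA, hc⟩ := good_strict_R hfin x
    refine ⟨Ω, m, P, A, hP, hA, fun σ => (hc σ (Set.mem_univ σ)).trans ?_⟩
    rw [add_zero]
    refine mul_le_mul_of_nonneg_right ?_ (opt_nonneg _ _)
    have h := ENNReal.toReal_mono ENNReal.ofReal_ne_top hR
    rw [ENNReal.toReal_ofReal (by positivity)] at h
    refine h.trans (mul_le_mul_of_nonneg_right ?_ hK4)
    linarith

end Vale.Agent.Results.P304.PolylogSharp
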